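import Vale.Agent.P011.E6X.H408.Cr
import Vale.Agent.P011.E6X.XDefs

/-!
Estimates for the cross product in the coordinates of the first Tits form.
-/

open Matrix Finset

namespace Vale.Agent.P011.E6X.H408

open Vale.Agent.P011.MPQ Vale.Agent.P011.D4 Vale.Agent.P011.D4.Oct Vale.Agent.P011.E6
open Vale.Agent.P011.E6O Vale.Agent.P011.E6O.Sl

variable {F : Type} [Field F] {a b c : Fˣ} {al : F} (w : F →+* ℂ)

/-- The sum of the absolute values of the entries. -/
noncomputable def mn (X : Matrix (Fin 3) (Fin 3) F) : ℝ := ∑ i, ∑ j, ‖w (X i j)‖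

theorem mn_nonneg (X : Matrix (Fin 3) (Fin 3) F) : 0 ≤ mn w X :=
  sum_nonneg fun _ _ => sum_nonneg fun _ _ => norm_nonneg _

theorem le_mn (X : Matrix (Fin 3) (Fin 3) F) (i j : Fin 3) : ‖w (X i j)‖ ≤ mn w X :=
  (single_le_sum (f := fun j => ‖w (X i j)‖) (fun _ _ => norm_nonneg _) (mem_univ j)).trans
    (single_le_sum (f := fun i => ∑ j, ‖w (X i j)‖)
      (fun _ _ => sum_nonneg fun _ _ => norm_nonneg _) (mem_univ i))

theorem mn_add (X Y : Matrix (Fin 3) (Fin 3) F) : mn w (X + Y) ≤ mn w X + mn w Y := by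
  rw [mn, mn, mn, ← sum_add_distrib]
  refine sum_le_sum fun i _ => ?_
  rw [← sum_add_distrib]
  refine sum_le_sum fun j _ => ?_
  rw [Matrix.add_apply, map_add]
  exact norm_add_le _ _

theorem mn_neg (X : Matrix (Fin 3) (Fin 3) F) : mn w (-X) = mn w X := by
  simp [mn]

theorem mn_sub (X Y : Matrix (Fin 3) (Fin 3) F) : mn w (X - Y) ≤ mn w X + mn w Y := by
  rw [sub_eq_add_neg, ← mn_neg w Y]
  exact mn_add w X (-Y)

theorem mn_mul (X Y : Matrix (Fin 3) (Fin 3) F) : mn w (X * Y) ≤ 27 * (mn w X * mn w Y) := by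
  have h : ∀ i j, ‖w ((X * Y) i j)‖ ≤ 3 * (mn w X * mn w Y) := by
    intro i j
    rw [Matrix.mul_apply, map_sum]
    calc _ ≤ ∑ l : Fin 3, ‖w (X i l * Y l j)‖ := norm_sum_le _ _
      _ ≤ ∑ _l : Fin 3, mn w X * mn w Y := by
          refine sum_le_sum fun l _ => ?_
          rw [map_mul, _root_.norm_mul]
          exact mul_le_mul (le_mn w X i l) (le_mn w Y l j) (norm_nonneg _) (mn_nonneg w X)
      _ = _ := by simp
  calc mn w (X * Y) ≤ ∑ _i : Fin 3, ∑ _j : Fin 3, 3 * (mn w X * mn w Y) :=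
        sum_le_sum fun i _ => sum_le_sum fun j _ => h i j
    _ = _ := by simp; ring

theorem four {p q r s t : ℂ} {M : ℝ} (hp : ‖p‖ ≤ M) (hq : ‖q‖ ≤ M) (hr : ‖r‖ ≤ M)
    (hs : ‖s‖ ≤ M) (ht : t = p + q - r - s) : ‖t‖ ≤ 4 * M := by
  rw [ht]
  have h1 := norm_sub_le (p + q - r) s
  have h2 := norm_sub_le (p + q) r
  have h3 := norm_add_le p q
  linarith

theorem mn_pad (X Y : Matrix (Fin 3) (Fin 3) F) : mn w (pad X Y) ≤ 36 * (mn w X * mn w Y) := by
  have hm : ∀ i j i' j', ‖w (X i j * Y i' j')‖ ≤ mn w X * mn w Y := by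
    intro i j i' j'
    rw [map_mul, _root_.norm_mul]
    exact mul_le_mul (le_mn w X i j) (le_mn w Y i' j') (norm_nonneg _) (mn_nonneg w X)
  have h : ∀ i j, ‖w (pad X Y i j)‖ ≤ 4 * (mn w X * mn w Y) := by
    intro i j
    rw [pad_apply]
    fin_cases i <;> fin_cases j <;>
      simp only [Fin.zero_eta, Fin.mk_one, Fin.reduceFinMk, Fin.isValue, Matrix.of_apply,
              Matrix.cons_val', Matrix.cons_val_zero, Matrix.cons_val_one, Matrix.cons_val,
              Matrix.cons_val_fin_one, map_sub, map_add] <;>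
      exact four (hm _ _ _ _) (hm _ _ _ _) (hm _ _ _ _) (hm _ _ _ _) rfl
  calc mn w (pad X Y) ≤ ∑ _i : Fin 3, ∑ _j : Fin 3, 4 * (mn w X * mn w Y) :=
        sum_le_sum fun i _ => sum_le_sum fun j _ => h i j
    _ = _ := by simp; ring

variable (al) in
/-- The sum of the absolute values of the coordinates. -/
noncomputable def tn (x : Alb a b c) : ℝ := mn w (XX al x) + mn w (YY al x) + mn w (ZZ al x)

theorem tn_nonneg (x : Alb a b c) : 0 ≤ tn al w x :=
  add_nonneg (add_nonneg (mn_nonneg w _) (mn_nonneg w _)) (mn_nonneg w _)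

theorem tn_add (x y : Alb a b c) : tn al w (x + y) ≤ tn al w x + tn al w y := by
  have h1 := mn_add w (XX al x) (XX al y)
  have h2 := mn_add w (YY al x) (YY al y)
  have h3 := mn_add w (ZZ al x) (ZZ al y)
  rw [tn, tn, tn, map_add, map_add, map_add]
  linarith

theorem tn_neg (x : Alb a b c) : tn al w (-x) = tn al w x := by
  rw [tn, tn, map_neg, map_neg, map_neg, mn_neg, mn_neg, mn_neg]

theorem tn_sub (x y : Alb a b c) : tn al w (x - y) ≤ tn al w x + tn al w y := by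
  rw [sub_eq_add_neg, ← tn_neg w y]
  exact tn_add w x (-y)

theorem tn_cross (hal : al ^ 2 = a) (x y : Alb a b c) :
    tn al w (Alb.cross x y) ≤ 54 * (tn al w x * tn al w y) := by
  have hx1 := mn_nonneg w (XX al x)
  have hx2 := mn_nonneg w (YY al x)
  have hx3 := mn_nonneg w (ZZ al x)
  have hy1 := mn_nonneg w (XX al y)
  have hy2 := mn_nonneg w (YY al y)
  have hy3 := mn_nonneg w (ZZ al y)
  have h1 := mn_pad w (XX al x) (XX al y)
  have h2 := mn_pad w (YY al x) (YY al y)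
  have h3 := mn_pad w (ZZ al x) (ZZ al y)
  have h4 := mn_mul w (ZZ al x) (YY al y)
  have h5 := mn_mul w (ZZ al y) (YY al x)
  have h6 := mn_mul w (YY al x) (XX al y)
  have h7 := mn_mul w (YY al y) (XX al x)
  have h8 := mn_mul w (XX al x) (ZZ al y)
  have h9 := mn_mul w (XX al y) (ZZ al x)
  have k1 := mn_sub w (pad (XX al x) (XX al y) - ZZ al x * YY al y) (ZZ al y * YY al x)
  have k2 := mn_sub w (pad (XX al x) (XX al y)) (ZZ al x * YY al y)
  have k3 := mn_sub w (pad (ZZ al x) (ZZ al y) - YY al x * XX al y) (YY al y * XX al x)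
  have k4 := mn_sub w (pad (ZZ al x) (ZZ al y)) (YY al x * XX al y)
  have k5 := mn_sub w (pad (YY al x) (YY al y) - XX al x * ZZ al y) (XX al y * ZZ al x)
  have k6 := mn_sub w (pad (YY al x) (YY al y)) (XX al x * ZZ al y)
  rw [tn, XX_cross hal, YY_cross hal, ZZ_cross hal, tn, tn]
  nlinarith [mul_nonneg hx1 hy1, mul_nonneg hx1 hy2, mul_nonneg hx1 hy3, mul_nonneg hx2 hy1,
    mul_nonneg hx2 hy2, mul_nonneg hx2 hy3, mul_nonneg hx3 hy1, mul_nonneg hx3 hy2,
    mul_nonneg hx3 hy3]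

section al

variable {k E : Type} [Field k] [Field E] [Algebra k E] {al : E} {a b c : kˣ} (v : E →+* ℂ)

theorem nw_eq (x : AlbL E a b c) : nw v al x = tn al v x := by
  simp only [nw, tn, mn, sum_add_distrib]

theorem nw_nonneg (x : AlbL E a b c) : 0 ≤ nw v al x := by
  rw [nw_eq]
  exact tn_nonneg v x

theorem nw_add (x y : AlbL E a b c) : nw v al (x + y) ≤ nw v al x + nw v al y := by
  rw [nw_eq, nw_eq, nw_eq]
  exact tn_add v x y

theorem nw_neg (x : AlbL E a b c) : nw v al (-x) = nw v al x := by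
  rw [nw_eq, nw_eq]
  exact tn_neg v x

theorem nw_sub (x y : AlbL E a b c) : nw v al (x - y) ≤ nw v al x + nw v al y := by
  rw [nw_eq, nw_eq, nw_eq]
  exact tn_sub v x y

theorem XX_le (x : AlbL E a b c) (i j : Fin 3) : ‖v (XX al x i j)‖ ≤ nw v al x := by
  rw [nw_eq, tn]
  have h1 := le_mn v (XX al x) i j
  have h2 := mn_nonneg v (YY al x)
  have h3 := mn_nonneg v (ZZ al x)
  linarith

theorem YY_le (x : AlbL E a b c) (i j : Fin 3) : ‖v (YY al x i j)‖ ≤ nw v al x := by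
  rw [nw_eq, tn]
  have h1 := le_mn v (YY al x) i j
  have h2 := mn_nonneg v (XX al x)
  have h3 := mn_nonneg v (ZZ al x)
  linarith

theorem ZZ_le (x : AlbL E a b c) (i j : Fin 3) : ‖v (ZZ al x i j)‖ ≤ nw v al x := by
  rw [nw_eq, tn]
  have h1 := le_mn v (ZZ al x) i j
  have h2 := mn_nonneg v (XX al x)
  have h3 := mn_nonneg v (YY al x)
  linarith

theorem nw_cross (hal : al ^ 2 = (up E a : E)) (x y : AlbL E a b c) :
    nw v al (Alb.cross x y) ≤ 54 * (nw v al x * nw v al y) := by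
  rw [nw_eq, nw_eq, nw_eq]
  exact tn_cross v hal x y

/-- The coordinates of the standard points. -/
theorem XX_pb (q : Qt (up E a) (up E b)) (i : Fin 3) :
    XX al (pb ⟨0, q⟩ i : AlbL E a b c) = 0 := by
  ext i' j'
  fin_cases i <;> fin_cases i' <;> fin_cases j' <;> simp [XX, pb]

theorem YY_pb (h2 : (2 : E) ≠ 0) (hal : al ^ 2 = (up E a : E)) (s t : E) (i : Fin 3) :
    YY al (pb ⟨0, mkq (up E a) (up E b) al 0 s t 0⟩ i : AlbL E a b c) = 0 := by
  obtain ⟨h1, h3, h4, h5⟩ := mkq_co (b := up E b) h2 hal 0 s t 0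
  ext i' j'
  fin_cases i <;> fin_cases i' <;> fin_cases j' <;> simp [YY, pb, h1, h5]

theorem ZZ_pb (h2 : (2 : E) ≠ 0) (hal : al ^ 2 = (up E a : E)) (s t : E) (i : Fin 3) :
    ZZ al (pb ⟨0, mkq (up E a) (up E b) al 0 s t 0⟩ i : AlbL E a b c) =
      vecMulVec (Pi.single i 1) ![-(up E c : E) * s, 0, t] := by
  obtain ⟨h1, h3, h4, h5⟩ := mkq_co (b := up E b) h2 hal 0 s t 0
  ext i' j'
  fin_cases i <;> fin_cases i' <;> fin_cases j' <;> simp [ZZ, pb, h3, h4, vecMulVec_apply]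

theorem cross_near (hal : al ^ 2 = (up E a : E)) {p q y : AlbL E a b c} {δ : ℝ}
    (hp : nw v al (p - q) ≤ δ) (h : Alb.cross p y = 0) :
    nw v al (Alb.cross q y) ≤ 54 * δ * nw v al y := by
  have e : Alb.cross q y = -Alb.cross (p - q) y := by
    have h1 : Alb.cross (p - q) y + Alb.cross q y = Alb.cross p y := by
      rw [← Alb.cross_add_left, sub_add_cancel]
    rw [h] at h1
    exact eq_neg_of_add_eq_zero_right h1
  rw [e, nw_neg]
  refine (nw_cross v hal _ _).trans ?_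
  have h1 := nw_nonneg (al := al) v y
  nlinarith

/-- The coordinates of an element which is adjacent to two points near the standard ones. -/
theorem near_core (h2 : (2 : E) ≠ 0) (hal : al ^ 2 = (up E a : E)) {p q : Fin 3 → AlbL E a b c}
    {δ : ℝ} (hp : ∀ i, nw v al (p i - pb (xm al) i) ≤ δ)
    (hq : ∀ i, nw v al (q i - pb (xj al) i) ≤ δ) {y : AlbL E a b c}
    (hpy : ∀ i, Alb.cross (p i) y = 0) (hqy : ∀ i, Alb.cross (q i) y = 0) :
    (∀ i j, ‖v (XX al y i j)‖ ≤ (1 + ‖v (up E c : E)‖⁻¹) * (54 * δ * nw v al y)) ∧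
    (∀ j, ‖v (YY al y 0 j)‖ ≤ (1 + ‖v (up E c : E)‖⁻¹) * (54 * δ * nw v al y)) ∧
    (∀ j, ‖v (YY al y 2 j)‖ ≤ (1 + ‖v (up E c : E)‖⁻¹) * (54 * δ * nw v al y)) ∧
    (∀ i j, ‖v (ZZ al y i j)‖ ≤ (1 + ‖v (up E c : E)‖⁻¹) * (54 * δ * nw v al y)) := by
  have hc : 0 < ‖v (up E c : E)‖ := norm_pos_iff.mpr ((map_ne_zero v).mpr (up E c).ne_zero)
  obtain ⟨K, hK⟩ : ∃ K : ℝ, K = 54 * δ * nw v al y := ⟨_, rfl⟩
  have hP : ∀ i, nw v al (Alb.cross (pb (xm al) i) y) ≤ K := fun i => by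
    rw [hK]; exact cross_near v hal (hp i) (hpy i)
  have hQ : ∀ i, nw v al (Alb.cross (pb (xj al) i) y) ≤ K := fun i => by
    rw [hK]; exact cross_near v hal (hq i) (hqy i)
  rw [← hK]
  have hK0 : 0 ≤ K := (nw_nonneg v _).trans (hP 0)
  -- a coordinate which appears with the coefficient `c`
  have key : ∀ t : E, ‖v ((up E c : E) * t)‖ ≤ K → ‖v t‖ ≤ (1 + ‖v (up E c : E)‖⁻¹) * K := by
    intro t ht
    rw [map_mul, _root_.norm_mul] at ht
    have h1 : ‖v t‖ ≤ ‖v (up E c : E)‖⁻¹ * K := by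
      rw [inv_mul_eq_div, le_div_iff₀ hc]
      linarith
    linarith
  have key' : ∀ t : E, ‖v t‖ ≤ K → ‖v t‖ ≤ (1 + ‖v (up E c : E)‖⁻¹) * K := by
    intro t ht
    have : 0 ≤ ‖v (up E c : E)‖⁻¹ * K := by positivity
    linarith
  have eP : ∀ i, XX al (Alb.cross (pb (xm al) i) y) =
      -(vecMulVec (Pi.single i 1) ![-(up E c : E) * 1, 0, 0] * YY al y) := by
    intro i
    rw [XX_cross hal, xm, XX_pb, YY_pb h2 hal, ZZ_pb h2 hal]
    simp [pad]
  have eP' : ∀ i, ZZ al (Alb.cross (pb (xm al) i) y) =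
      -(XX al y * vecMulVec (Pi.single i 1) ![-(up E c : E) * 1, 0, 0]) := by
    intro i
    rw [ZZ_cross hal, xm, XX_pb, YY_pb h2 hal, ZZ_pb h2 hal]
    simp [pad]
  have eP'' : ∀ i, YY al (Alb.cross (pb (xm al) i) y) =
      pad (vecMulVec (Pi.single i 1) ![-(up E c : E) * 1, 0, 0]) (ZZ al y) := by
    intro i
    rw [YY_cross hal, xm, XX_pb, YY_pb h2 hal, ZZ_pb h2 hal]
    simp
  have eQ : ∀ i, XX al (Alb.cross (pb (xj al) i) y) =
      -(vecMulVec (Pi.single i 1) ![-(up E c : E) * 0, 0, 1] * YY al y) := by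
    intro i
    rw [XX_cross hal, xj, XX_pb, YY_pb h2 hal, ZZ_pb h2 hal]
    simp [pad]
  have eQ'' : ∀ i, YY al (Alb.cross (pb (xj al) i) y) =
      pad (vecMulVec (Pi.single i 1) ![-(up E c : E) * 0, 0, 1]) (ZZ al y) := by
    intro i
    rw [YY_cross hal, xj, XX_pb, YY_pb h2 hal, ZZ_pb h2 hal]
    simp
  refine ⟨fun i j => ?_, fun j => ?_, fun j => ?_, fun i j => ?_⟩
  · apply key
    have h1 := (ZZ_le (al := al) v (Alb.cross (pb (xm al) j) y) i 0).trans (hP j)
    rw [eP'] at h1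
    fin_cases i <;> fin_cases j <;>
      simpa [Matrix.mul_apply, Fin.sum_univ_three, vecMulVec_apply, mul_comm] using h1
  · apply key
    have h1 := (XX_le (al := al) v (Alb.cross (pb (xm al) 0) y) 0 j).trans (hP 0)
    rw [eP] at h1
    fin_cases j <;>
      simpa [Matrix.mul_apply, Fin.sum_univ_three, vecMulVec_apply, mul_comm] using h1
  · apply key'
    have h1 := (XX_le (al := al) v (Alb.cross (pb (xj al) 0) y) 0 j).trans (hQ 0)
    rw [eQ] at h1
    fin_cases j <;>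
      simpa [Matrix.mul_apply, Fin.sum_univ_three, vecMulVec_apply, mul_comm] using h1
  · have h0 := fun i' j' => (YY_le (al := al) v (Alb.cross (pb (xm al) 0) y) i' j').trans (hP 0)
    have h1 := fun i' j' => (YY_le (al := al) v (Alb.cross (pb (xm al) 1) y) i' j').trans (hP 1)
    have g0 := fun i' j' => (YY_le (al := al) v (Alb.cross (pb (xj al) 0) y) i' j').trans (hQ 0)
    have g1 := fun i' j' => (YY_le (al := al) v (Alb.cross (pb (xj al) 1) y) i' j').trans (hQ 1)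
    rw [eP'', pad_apply] at h0 h1
    rw [eQ'', pad_apply] at g0 g1
    have a00 := g1 1 2
    have a01 := g1 0 2
    have a02 := h1 1 2
    have a10 := g0 1 2
    have a11 := g0 0 2
    have a12 := h0 1 2
    have a20 := g0 1 1
    have a21 := g0 0 1
    have a22 := h0 1 1
    simp only [vecMulVec_apply, Matrix.of_apply, Matrix.cons_val', Matrix.cons_val_zero,
      Matrix.cons_val_one, Matrix.cons_val, Matrix.cons_val_fin_one, Fin.isValue,
      Pi.single_apply, Fin.reduceEq, if_true, if_false, mul_one, mul_zero, zero_mul, one_mul,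
      add_zero, zero_add, sub_zero, zero_sub, neg_mul, sub_neg_eq_add, map_neg,
      _root_.norm_neg] at a00 a01 a02 a10 a11 a12 a20 a21 a22
    fin_cases i <;> fin_cases j
    · exact key' _ a00
    · exact key' _ a01
    · exact key _ a02
    · exact key' _ a10
    · exact key' _ a11
    · exact key _ a12
    · exact key' _ a20
    · exact key' _ a21
    · exact key _ a22

end al

end Vale.Agent.P011.E6X.H408
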