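import Vale.Agent.P011.E6O.H342.Tits

/-!
The cross product in the first Tits form.
-/

open Matrix

namespace Vale.Agent.P011.E6X.H408

open Vale.Agent.P011.MPQ Vale.Agent.P011.D4 Vale.Agent.P011.D4.Oct Vale.Agent.P011.E6
open Vale.Agent.P011.E6O Vale.Agent.P011.E6O.Sl

section gen

variable {F : Type} [Field F] {a b c : Fˣ} {al : F}

/-- The polar form of the adjugate. -/
def pad (X Y : Matrix (Fin 3) (Fin 3) F) : Matrix (Fin 3) (Fin 3) F :=
  (X + Y).adjugate - X.adjugate - Y.adjugate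

theorem cross_eq (x y : Alb a b c) : Alb.cross x y = Alb.adj (x + y) - Alb.adj x - Alb.adj y := by
  rw [Alb.adj_add]
  abel

theorem XX_cross (hal : al ^ 2 = a) (x y : Alb a b c) :
    XX al (Alb.cross x y) = pad (XX al x) (XX al y) - ZZ al x * YY al y - ZZ al y * YY al x := by
  rw [cross_eq, map_sub, map_sub, XX_adj hal, XX_adj hal, XX_adj hal, map_add, map_add, map_add,
    pad, add_mul, mul_add, mul_add]
  abel

theorem YY_cross (hal : al ^ 2 = a) (x y : Alb a b c) :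
    YY al (Alb.cross x y) = pad (ZZ al x) (ZZ al y) - YY al x * XX al y - YY al y * XX al x := by
  rw [cross_eq, map_sub, map_sub, YY_adj hal, YY_adj hal, YY_adj hal, map_add, map_add, map_add,
    pad, add_mul, mul_add, mul_add]
  abel

theorem ZZ_cross (hal : al ^ 2 = a) (x y : Alb a b c) :
    ZZ al (Alb.cross x y) = pad (YY al x) (YY al y) - XX al x * ZZ al y - XX al y * ZZ al x := by
  rw [cross_eq, map_sub, map_sub, ZZ_adj hal, ZZ_adj hal, ZZ_adj hal, map_add, map_add, map_add,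
    pad, add_mul, mul_add, mul_add]
  abel

theorem pad_apply (X Y : Matrix (Fin 3) (Fin 3) F) : pad X Y =
    !![X 1 1 * Y 2 2 + X 2 2 * Y 1 1 - X 1 2 * Y 2 1 - X 2 1 * Y 1 2,
       X 0 2 * Y 2 1 + X 2 1 * Y 0 2 - X 0 1 * Y 2 2 - X 2 2 * Y 0 1,
       X 0 1 * Y 1 2 + X 1 2 * Y 0 1 - X 0 2 * Y 1 1 - X 1 1 * Y 0 2;
       X 1 2 * Y 2 0 + X 2 0 * Y 1 2 - X 1 0 * Y 2 2 - X 2 2 * Y 1 0,
       X 0 0 * Y 2 2 + X 2 2 * Y 0 0 - X 0 2 * Y 2 0 - X 2 0 * Y 0 2,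
       X 0 2 * Y 1 0 + X 1 0 * Y 0 2 - X 0 0 * Y 1 2 - X 1 2 * Y 0 0;
       X 1 0 * Y 2 1 + X 2 1 * Y 1 0 - X 1 1 * Y 2 0 - X 2 0 * Y 1 1,
       X 0 1 * Y 2 0 + X 2 0 * Y 0 1 - X 0 0 * Y 2 1 - X 2 1 * Y 0 0,
       X 0 0 * Y 1 1 + X 1 1 * Y 0 0 - X 0 1 * Y 1 0 - X 1 0 * Y 0 1] := by
  rw [pad, Matrix.adjugate_fin_three, Matrix.adjugate_fin_three, Matrix.adjugate_fin_three]
  ext i j
  fin_cases i <;> fin_cases j <;> simp <;> ring

theorem pad_comm (X Y : Matrix (Fin 3) (Fin 3) F) : pad X Y = pad Y X := by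
  rw [pad, pad, add_comm X Y]
  abel

end gen

end Vale.Agent.P011.E6X.H408
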