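import Vale.Agent.P011.E6X.H408.Cr
import Vale.Agent.P011.E6O.H493.Co
import Vale.Agent.P011.E6O.Defs2

/-!
The hermitian form in the coordinates of the first Tits form.
-/

open Matrix

namespace Vale.Agent.P011.E6X.H408

open Vale.Agent.P011.MPQ Vale.Agent.P011.D4 Vale.Agent.P011.D4.Oct Vale.Agent.P011.E6
open Vale.Agent.P011.E6O Vale.Agent.P011.E6O.Sl

variable {k E : Type} [Field k] [Field E] [Algebra k E]
  {ρ σ : E ≃ₐ[k] E} {lam : Eˣ} {g : Fin 3 → Eˣ} {al s : E} {a b c : kˣ}

theorem ca_conj (h : σ al = -al) (q : Qt (up E a) (up E b)) :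
    ca al (qmap σ q) = σ (cb al q) := by
  simp only [ca, cb, qmap, map_sub, map_mul, h]
  ring

theorem cb_conj (h : σ al = -al) (q : Qt (up E a) (up E b)) :
    cb al (qmap σ q) = σ (ca al q) := by
  simp only [ca, cb, qmap, map_add, map_mul, h]
  ring

theorem cg_conj (h : σ al = -al) (q : Qt (up E a) (up E b)) :
    cg al (qmap σ q) = σ (cd al q) := by
  simp only [cg, cd, qmap, map_sub, map_mul, h]
  ring

theorem cd_conj (h : σ al = -al) (q : Qt (up E a) (up E b)) :
    cd al (qmap σ q) = σ (cg al q) := by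
  simp only [cg, cd, qmap, map_add, map_mul, h]
  ring

theorem bil_co {F : Type} [Field F] {a b c : Fˣ} {al : F} (hal : al ^ 2 = a) (x y : Oct a b c) :
    bil x y = (ca al x.fst * cb al y.fst + cb al x.fst * ca al y.fst -
        b * (cg al x.fst * cd al y.fst + cd al x.fst * cg al y.fst)) -
      c * (ca al x.snd * cb al y.snd + cb al x.snd * ca al y.snd -
        b * (cg al x.snd * cd al y.snd + cd al x.snd * cg al y.snd)) := by
  rw [bil, norm_co hal, norm_co hal, norm_co hal]
  simp only [fst_add, snd_add, ca_add, cb_add, cg_add, cd_add]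
  ring

/-- The hermitian form on the octonions. -/
theorem bil_conj (hal : al ^ 2 = (up E a : E)) (h : σ al = -al) (x y : OctL E a b c) :
    bil x (omap σ y) = (ca al x.fst * σ (ca al y.fst) + cb al x.fst * σ (cb al y.fst) -
        (up E b : E) * (cg al x.fst * σ (cg al y.fst) + cd al x.fst * σ (cd al y.fst))) -
      (up E c : E) * (ca al x.snd * σ (ca al y.snd) + cb al x.snd * σ (cb al y.snd) -
        (up E b : E) * (cg al x.snd * σ (cg al y.snd) + cd al x.snd * σ (cd al y.snd))) := by
  rw [bil_co hal]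
  simp only [omap, ca_conj h, cb_conj h, cg_conj h, cd_conj h]

/-- The hermitian form is diagonal in the coordinates. -/
theorem her_co (x y : AlbL E a b c) :
    her σ g x y = (g 0 : E) ^ 2 * (x.d1 * σ y.d1) + (g 1 : E) ^ 2 * (x.d2 * σ y.d2) +
      (g 2 : E) ^ 2 * (x.d3 * σ y.d3) + (g 1 : E) * g 2 * bil x.x1 (omap σ y.x1) +
      (g 2 : E) * g 0 * bil x.x2 (omap σ y.x2) + (g 0 : E) * g 1 * bil x.x3 (omap σ y.x3) := by
  simp only [her, Alb.tf, Alb.wt, amap, Vale.Agent.P011.D4.Oct.bil_smul_left]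
  ring

end Vale.Agent.P011.E6X.H408
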