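import Vale.Agent.P011.E6X.H342.Co

/-!
The hermitian form is positive definite at the places where the group is compact.
-/

open NumberField Matrix

namespace Vale.Agent.P011.E6X

open Vale.Agent.P011.MPQ Vale.Agent.P011.D4 Vale.Agent.P011.D4.Oct Vale.Agent.P011.E6
open Vale.Agent.P011.E6O
open Vale.Agent.P011.E6O.Sl (XX YY ZZ)

variable {k E : Type} [Field k] [Field E] [Algebra k E]
  {σ : E ≃ₐ[k] E} {g : Fin 3 → Eˣ} {al : E} {a b c : kˣ}

theorem real_of_fix_c {w : E →+* ℂ} (hw : SC σ w) {t : E} (ht : σ t = t) :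
    w t = ((w t).re : ℂ) := by
  have h := hw t
  rw [ht] at h
  exact (Complex.conj_eq_iff_re.mp h.symm).symm

/-- The coefficients of the form are positive. -/
theorem cf_pos {w : E →+* ℂ} (hw : SC σ w) (hσg : ∀ i, σ (g i) = g i) (hc : Cp g b c w)
    (p : Fin 3 × Fin 3 × Fin 3) : ∃ r : ℝ, 0 < r ∧ w (cf g b c p) = r := by
  obtain ⟨hb, hc, h01, h12⟩ := hc
  obtain ⟨γ, hγ⟩ : ∃ γ : Fin 3 → ℝ, ∀ i, w (g i) = (γ i : ℂ) :=
    ⟨fun i => (w (g i)).re, fun i => real_of_fix_c hw (hσg i)⟩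
  obtain ⟨β, hβ⟩ : ∃ β : ℝ, w (up E b : E) = (β : ℂ) :=
    ⟨_, real_of_fix_c hw (σ.commutes _)⟩
  obtain ⟨κ, hκ⟩ : ∃ κ : ℝ, w (up E c : E) = (κ : ℂ) :=
    ⟨_, real_of_fix_c hw (σ.commutes _)⟩
  have hβ0 : β < 0 := by
    have h : (w (up E b : E)).re < 0 := hb
    rwa [hβ, Complex.ofReal_re] at h
  have hκ0 : κ < 0 := by
    have h : (w (up E c : E)).re < 0 := hc
    rwa [hκ, Complex.ofReal_re] at h
  rw [map_mul, hγ, hγ, ← Complex.ofReal_mul, Complex.ofReal_re] at h01 h12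
  have hγ1 : γ 1 ≠ 0 := fun h => by
    rw [h, mul_zero] at h01
    exact lt_irrefl _ h01
  have hg : ∀ i j, 0 < γ i * γ j := by
    have key : ∀ i, 0 < γ i * γ 1 := by
      intro i
      fin_cases i
      · exact h01
      · exact mul_self_pos.mpr hγ1
      · rw [mul_comm]; exact h12
    intro i j
    have h1 := mul_pos (key i) (key j)
    have h2 : 0 < γ 1 * γ 1 := mul_self_pos.mpr hγ1
    have h3 : γ i * γ 1 * (γ j * γ 1) = (γ i * γ j) * (γ 1 * γ 1) := by ring
    rw [h3] at h1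
    exact pos_of_mul_pos_left h1 h2.le
  have hW : ∀ j, ∃ r : ℝ, 0 < r ∧
      w ((![(g 1 : E) * g 2, g 2 * g 0, g 0 * g 1] : Fin 3 → E) j) = r := by
    intro j
    fin_cases j
    · exact ⟨γ 1 * γ 2, hg 1 2, by simp [hγ]⟩
    · exact ⟨γ 2 * γ 0, hg 2 0, by simp [hγ]⟩
    · exact ⟨γ 0 * γ 1, hg 0 1, by simp [hγ]⟩
  have hY : ∀ i, ∃ r : ℝ, 0 < r ∧ w ((![-(up E c : E), -(up E b : E),
      ((up E b : E) * (up E c : E))⁻¹] : Fin 3 → E) i) = r := by
    intro i
    fin_cases i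
    · exact ⟨-κ, by linarith, by
        change w (-(up E c : E)) = _
        rw [map_neg, hκ]
        push_cast
        rfl⟩
    · exact ⟨-β, by linarith, by
        change w (-(up E b : E)) = _
        rw [map_neg, hβ]
        push_cast
        rfl⟩
    · exact ⟨(β * κ)⁻¹, inv_pos.mpr (mul_pos_of_neg_of_neg hβ0 hκ0), by
        change w (((up E b : E) * (up E c : E))⁻¹) = _
        rw [map_inv₀, map_mul, hβ, hκ]
        push_cast
        rfl⟩
  have hZ : ∀ i, ∃ r : ℝ, 0 < r ∧ w ((![-(up E c : E)⁻¹, -(up E b : E)⁻¹,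
      (up E b : E) * (up E c : E)] : Fin 3 → E) i) = r := by
    intro i
    fin_cases i
    · exact ⟨-κ⁻¹, by
        have := inv_lt_zero.mpr hκ0
        linarith, by
        change w (-(up E c : E)⁻¹) = _
        rw [map_neg, map_inv₀, hκ]
        push_cast
        rfl⟩
    · exact ⟨-β⁻¹, by
        have := inv_lt_zero.mpr hβ0
        linarith, by
        change w (-(up E b : E)⁻¹) = _
        rw [map_neg, map_inv₀, hβ]
        push_cast
        rfl⟩
    · exact ⟨β * κ, mul_pos_of_neg_of_neg hβ0 hκ0, by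
        change w ((up E b : E) * (up E c : E)) = _
        rw [map_mul, hβ, hκ]
        push_cast
        rfl⟩
  obtain ⟨t, i, j⟩ := p
  fin_cases t
  · refine ⟨γ i * γ j, hg i j, ?_⟩
    change w ((g i : E) * g j) = _
    rw [map_mul, hγ, hγ]
    push_cast
    rfl
  · obtain ⟨r, hr, h1⟩ := hW j
    obtain ⟨r', hr', h2⟩ := hY i
    refine ⟨r * r', mul_pos hr hr', ?_⟩
    change w (_ * _) = _
    rw [map_mul, h1, h2]
    push_cast
    rfl
  · obtain ⟨r, hr, h1⟩ := hW i
    obtain ⟨r', hr', h2⟩ := hZ j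
    refine ⟨r * r', mul_pos hr hr', ?_⟩
    change w (_ * _) = _
    rw [map_mul, h1, h2]
    push_cast
    rfl

/-- At a place where the group is compact, the form is positive definite. -/
theorem her_pos (h2 : (2 : E) ≠ 0) (hal : al ^ 2 = algebraMap k E a) (hσal : σ al = -al)
    {w : E →+* ℂ} (hw : SC σ w) (hσg : ∀ i, σ (g i) = g i) (hc : Cp g b c w)
    {x : AlbL E a b c} (hx : x ≠ 0) : 0 < (w (her σ g x x)).re := by
  choose r hr0 hr using cf_pos hw hσg hc
  have e : w (her σ g x x) = ((∑ p, r p * Complex.normSq (w (co al x p)) : ℝ) : ℂ) := by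
    rw [her_cf h2 hal hσal, map_sum]
    push_cast
    refine Finset.sum_congr rfl fun p _ => ?_
    rw [map_mul, map_mul, hr, hw, Complex.mul_conj]
  rw [e, Complex.ofReal_re]
  obtain ⟨p, hp⟩ : ∃ p, co al x p ≠ 0 := by
    by_contra h
    push Not at h
    exact hx (co_inj h2 hal (by rw [map_zero]; exact funext h))
  refine Finset.sum_pos' (fun p _ => mul_nonneg (hr0 p).le (Complex.normSq_nonneg _))
    ⟨p, Finset.mem_univ p, mul_pos (hr0 p) (Complex.normSq_pos.mpr ((map_ne_zero w).mpr hp))⟩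

end Vale.Agent.P011.E6X
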